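import Vale.Agent.P309.LearnerDefs

/-!
# P309: the least horizon
-/

namespace P309

/-- The output of the learner depends on its final state only (not on the index). -/
def Learner.FixedOutput {E : Type} [NormedAddCommGroup E] [MeasurableSpace E] {N : ℕ}
    (L : Learner E N) : Prop :=
  ∀ t, L.out t = L.out 0

/-- The least horizon for which some learner with `M` bits, whose output depends on its final state
only, succeeds at accuracy `ε` in `ℝ^d`; it is `⊤` if there is none. -/
noncomputable def leastHorizon (d M : ℕ) (ε : ℝ) : ℕ∞ :=
  ⨅ (T : ℕ) (_ : ∃ L : Learner (EuclideanSpace ℝ (Fin d)) (2 ^ M), L.FixedOutput ∧ L.Succeeds T ε),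
    (T : ℕ∞)

end P309
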