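import Mathlib.Probability.Distributions.Gaussian.Multivariate
import Mathlib.MeasureTheory.Constructions.HaarToSphere
import Mathlib.MeasureTheory.Measure.Haar.InnerProductSpace
import Mathlib.Analysis.SpecialFunctions.Trigonometric.Inverse

/-!
# P309: memory bounded learners for noiseless Gaussian linear regression
-/

open MeasureTheory ProbabilityTheory
open scoped ENNReal RealInnerProductSpace

namespace P309

/-- The uniform probability distribution on the unit sphere of `E` (later `E = ℝ^d`). -/
noncomputable def unifSphere (E : Type) [NormedAddCommGroup E] [InnerProductSpace ℝ E]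
    [FiniteDimensional ℝ E] [MeasurableSpace E] [BorelSpace E] :
    Measure (Metric.sphere (0 : E) 1) :=
  ((volume : Measure E).toSphere Set.univ)⁻¹ • (volume : Measure E).toSphere

/-- A learner with `N` memory states for signals in `E` (later `E = ℝ^d`).  `init` is the law of the
initial state.  When the learner is in state `q` after `t` samples and reads the pair `(x, y)`, then
`step t (q, x, y)` is the joint law of its stopping decision (`true` means stop) and of its new
state.  A learner stopped in state `q` after `t` samples outputs a random unit vector of law
`out t q`. -/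
structure Learner (E : Type) [NormedAddCommGroup E] [MeasurableSpace E] (N : ℕ) where
  init : Measure (Fin N)
  init_prob : IsProbabilityMeasure init
  step : ℕ → Kernel (Fin N × E × ℝ) (Bool × Fin N)
  step_markov : ∀ t, IsMarkovKernel (step t)
  out : ℕ → Kernel (Fin N) (Metric.sphere (0 : E) 1)
  out_markov : ∀ t, IsMarkovKernel (out t)

variable {E : Type} [NormedAddCommGroup E] [InnerProductSpace ℝ E] [FiniteDimensional ℝ E]
  [MeasurableSpace E] [BorelSpace E] {N : ℕ}

/-- Probability that the output of a learner stopped in state `q` after `t` samples is at angle at
most `ε` from `s`. -/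
noncomputable def Learner.good (L : Learner E N) (ε : ℝ) (t : ℕ) (q : Fin N) (s : E) : ℝ≥0∞ :=
  L.out t q {z | Real.arccos ⟪(z : E), s⟫ ≤ ε}

/-- Probability that a learner which is in state `q` after `t` samples and which may read at most
`k` further samples (independent standard Gaussian rows with exact labels for the signal `s`)
finally outputs a vector at angle at most `ε` from `s`. -/
noncomputable def Learner.win (L : Learner E N) (ε : ℝ) : ℕ → ℕ → Fin N → E → ℝ≥0∞
  | 0, t, q, s => L.good ε t q s
  | k + 1, t, q, s => ∫⁻ x, ∫⁻ p, (if p.1 = true then L.good ε (t + 1) p.2 s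
      else L.win ε k (t + 1) p.2 s) ∂(L.step t (q, x, ⟪x, s⟫)) ∂(stdGaussian E)

/-- The learner run with horizon `T` succeeds at accuracy `ε`: for a uniformly random signal the
output is at angle at most `ε` from the signal with probability at least `2/3`. -/
def Learner.Succeeds (L : Learner E N) (T : ℕ) (ε : ℝ) : Prop :=
  2 / 3 ≤ ∫⁻ s, ∫⁻ q, L.win ε T 0 q (s : E) ∂L.init ∂(unifSphere E)

end P309
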